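import Mathlib.Combinatorics.SimpleGraph.Metric
import Mathlib.Tactic

/-!
A graph in which `|∮ f dg| ≤ C * length` for all closed walks and all `1`-Lipschitz functions has
thin geodesic triangles.
-/

namespace Vale.Agent.P186H

open SimpleGraph

variable {V : Type*} {Γ : SimpleGraph V}

/-- `∮ f dg` along a walk -/
def I (f g : V → ℤ) : {u v : V} → Γ.Walk u v → ℤ
  | _, _, .nil => 0
  | _, _, .cons (u := a) (v := b) _ w => (f a + f b) * (g b - g a) + I f g w

/-- `1`-Lipschitz on the edges -/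
def Lip (Γ : SimpleGraph V) (f : V → ℤ) : Prop := ∀ u v, Γ.Adj u v → |f u - f v| ≤ 1

@[simp] theorem I_nil (f g : V → ℤ) (u : V) : I f g (Walk.nil : Γ.Walk u u) = 0 := rfl

@[simp] theorem I_cons (f g : V → ℤ) {a b c : V} (h : Γ.Adj a b) (w : Γ.Walk b c) :
    I f g (Walk.cons h w) = (f a + f b) * (g b - g a) + I f g w := rfl

theorem I_append (f g : V → ℤ) {a b c : V} (w : Γ.Walk a b) (w' : Γ.Walk b c) :
    I f g (w.append w') = I f g w + I f g w' := by
  induction w with
  | nil => simp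
  | cons h w ih => simp [ih, add_assoc]

theorem I_reverse (f g : V → ℤ) {a b : V} (w : Γ.Walk a b) : I f g w.reverse = - I f g w := by
  induction w with
  | nil => simp
  | cons h w ih =>
    rw [Walk.reverse_cons, I_append, ih]
    simp
    ring

theorem I_concat (f g : V → ℤ) {a b c : V} (w : Γ.Walk a b) (h : Γ.Adj b c) :
    I f g (w.concat h) = I f g w + (f b + f c) * (g c - g b) := by
  rw [Walk.concat_eq_append, I_append]
  simp

theorem I_const (f g : V → ℤ) (κ : ℤ) {a b : V} (w : Γ.Walk a b) (h : ∀ u ∈ w.support, f u = κ) :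
    I f g w = 2 * κ * (g b - g a) := by
  induction w with
  | nil => simp
  | cons hh w ih =>
    rename_i a b c
    rw [I_cons, ih (fun u hu => h u (by simp [hu])), h a (by simp), h b (by simp)]
    ring

theorem I_bound (f g : V → ℤ) (M : ℤ) (hg : Lip Γ g) {a b : V} (w : Γ.Walk a b)
    (h : ∀ u ∈ w.support, |f u| ≤ M) : |I f g w| ≤ 2 * M * w.length := by
  induction w with
  | nil => simp
  | cons hh w ih =>
    rename_i a b c
    have h1 := ih (fun u hu => h u (by simp [hu]))
    have h2 := h a (by simp)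
    have h3 := h b (by simp)
    have h4 := hg a b hh
    rw [I_cons, Walk.length_cons]
    have h5 : |(f a + f b) * (g b - g a)| ≤ 2 * M := by
      rw [abs_mul, abs_sub_comm (g b)]
      have h6 : |f a + f b| ≤ 2 * M := (abs_add_le _ _).trans (by linarith)
      have h7 : 0 ≤ |g a - g b| := abs_nonneg _
      nlinarith [abs_nonneg (f a + f b)]
    have h8 := abs_add_le ((f a + f b) * (g b - g a)) (I f g w)
    push_cast
    linarith

/-- subwalks -/
theorem exists_sub {x y : V} (p : Γ.Walk x y) (i : ℕ) : ∀ j, i ≤ j → j ≤ p.length →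
    ∃ w : Γ.Walk (p.getVert i) (p.getVert j), w.length = j - i ∧
      (∀ v ∈ w.support, ∃ m, i ≤ m ∧ m ≤ j ∧ v = p.getVert m) ∧
      ∀ f g : V → ℤ, I f g w = ∑ m ∈ Finset.Ico i j,
        (f (p.getVert m) + f (p.getVert (m + 1))) * (g (p.getVert (m + 1)) - g (p.getVert m)) := by
  intro j hij
  induction j, hij using Nat.le_induction with
  | base =>
    intro _
    exact ⟨Walk.nil, by simp, fun v hv => ⟨i, le_rfl, le_rfl, by simpa using hv⟩, by simp⟩
  | succ j hij ih =>
    intro hj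
    obtain ⟨w, h1, h2, h3⟩ := ih (by omega)
    refine ⟨w.concat (p.adj_getVert_succ (by omega)), ?_, ?_, ?_⟩
    · rw [Walk.length_concat, h1]; omega
    · intro v hv
      rw [Walk.support_concat, List.mem_append] at hv
      rcases hv with hv | hv
      · obtain ⟨m, h4, h5, h6⟩ := h2 v hv
        exact ⟨m, h4, by omega, h6⟩
      · simp only [List.mem_singleton] at hv
        exact ⟨j + 1, by omega, le_rfl, hv⟩
    · intro f g
      rw [I_concat, h3, Finset.sum_Ico_succ_top hij]

theorem dist_getVert (hc : Γ.Connected) {x y : V} (p : Γ.Walk x y) (hp : p.length = Γ.dist x y)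
    {i j : ℕ} (hij : i ≤ j) (hj : j ≤ p.length) :
    Γ.dist (p.getVert i) (p.getVert j) = j - i := by
  have k1 := exists_sub p 0 i (by omega) (by omega)
  have k3 := exists_sub p j p.length hj le_rfl
  rw [Walk.getVert_zero] at k1
  rw [Walk.getVert_length] at k3
  obtain ⟨w1, h1, -, -⟩ := k1
  obtain ⟨w2, h2, -, -⟩ := exists_sub p i j hij hj
  obtain ⟨w3, h3, -, -⟩ := k3
  have e1 := dist_le w1
  have e2 := dist_le w2
  have e3 := dist_le w3
  have e4 := hc.dist_triangle (u := x) (v := p.getVert i) (w := y)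
  have e5 := hc.dist_triangle (u := p.getVert i) (v := p.getVert j) (w := y)
  omega

theorem lip_dist (hc : Γ.Connected) (a : V) : Lip Γ (fun v => (Γ.dist v a : ℤ)) := by
  intro u v h
  have h1 : Γ.dist u v ≤ 1 := dist_le (Walk.cons h Walk.nil)
  have h2 := hc.dist_triangle (u := u) (v := v) (w := a)
  have h3 := hc.dist_triangle (u := v) (v := u) (w := a)
  rw [SimpleGraph.dist_comm (u := v) (v := u)] at h3
  simp only [abs_le]
  constructor <;> omega

/-- the nearest point of a nonempty set -/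
theorem exists_near (B : Set V) (hB : B.Nonempty) :
    ∃ D : V → ℕ, ∀ v, (∃ b ∈ B, Γ.dist v b = D v) ∧ ∀ b ∈ B, D v ≤ Γ.dist v b := by
  classical
  have h : ∀ v, ∃ n, ∃ b ∈ B, Γ.dist v b = n := fun v => by
    obtain ⟨b, hb⟩ := hB
    exact ⟨_, b, hb, rfl⟩
  refine ⟨fun v => Nat.find (h v), fun v => ⟨Nat.find_spec (h v), fun b hb => ?_⟩⟩
  exact Nat.find_min' (h v) ⟨b, hb, rfl⟩

/-- separating functions -/
theorem exists_sep (hc : Γ.Connected) (B : Set V) (hB : B.Nonempty) (R : ℕ) :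
    ∃ f : V → ℤ, Lip Γ f ∧ (∀ v, |f v| ≤ R) ∧ (∀ b ∈ B, f b = 0) ∧
      ∀ v, (∀ b ∈ B, R ≤ Γ.dist v b) → f v = R := by
  obtain ⟨D, hD⟩ := exists_near (Γ := Γ) B hB
  refine ⟨fun v => ((min R (D v) : ℕ) : ℤ), ?_, ?_, ?_, ?_⟩
  · intro u v h
    have h1 : Γ.dist u v ≤ 1 := dist_le (Walk.cons h Walk.nil)
    obtain ⟨⟨b, hb, hb1⟩, h2⟩ := hD u
    obtain ⟨⟨b', hb', hb1'⟩, h2'⟩ := hD v
    have h3 := hc.dist_triangle (u := u) (v := v) (w := b')
    have h4 := hc.dist_triangle (u := v) (v := u) (w := b)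
    rw [SimpleGraph.dist_comm (u := v) (v := u)] at h4
    have h5 := h2 b' hb'
    have h6 := h2' b hb
    simp only [abs_le]
    constructor <;> omega
  · intro v
    simp only [abs_le]
    constructor <;> omega
  · intro b hb
    have h1 := (hD b).2 b hb
    rw [SimpleGraph.dist_self] at h1
    have h2 : D b = 0 := by omega
    simp [h2]
  · intro v hv
    obtain ⟨⟨b, hb, hb1⟩, -⟩ := hD v
    have h1 := hv b hb
    have h2 : min R (D v) = R := by omega
    simp [h2]

/-- bump function -/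
theorem lip_bump (hc : Γ.Connected) (a : V) (ρ : ℕ) :
    Lip Γ (fun v => ((ρ - Γ.dist v a : ℕ) : ℤ)) := by
  intro u v h
  have h1 : Γ.dist u v ≤ 1 := dist_le (Walk.cons h Walk.nil)
  have h2 := hc.dist_triangle (u := u) (v := v) (w := a)
  have h3 := hc.dist_triangle (u := v) (v := u) (w := a)
  rw [SimpleGraph.dist_comm (u := v) (v := u)] at h3
  simp only [abs_le]
  constructor <;> omega

/-- from each point of the two sides at `z` there is a geodesic to `z` inside them -/
theorem exists_toz (hc : Γ.Connected) {x y z : V} (q : Γ.Walk y z) (r : Γ.Walk z x)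
    (hq : q.length = Γ.dist y z) (hr : r.length = Γ.dist z x) (w : V)
    (hw : w ∈ q.support ∨ w ∈ r.support) :
    ∃ s : Γ.Walk w z, s.length = Γ.dist w z ∧ ∀ v ∈ s.support, v ∈ q.support ∨ v ∈ r.support := by
  classical
  rcases hw with hw | hw
  · refine ⟨q.dropUntil w hw, ?_, fun v hv => Or.inl (q.support_dropUntil_subset_support hw hv)⟩
    have h1 : q.length = (q.takeUntil w hw).length + (q.dropUntil w hw).length := by
      rw [← Walk.length_append, Walk.take_spec]
    have h2 := dist_le (q.takeUntil w hw)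
    have h3 := dist_le (q.dropUntil w hw)
    have h4 := hc.dist_triangle (u := y) (v := w) (w := z)
    omega
  · refine ⟨(r.takeUntil w hw).reverse, ?_, fun v hv => Or.inr ?_⟩
    · rw [Walk.length_reverse]
      have h1 : r.length = (r.takeUntil w hw).length + (r.dropUntil w hw).length := by
        rw [← Walk.length_append, Walk.take_spec]
      have h2 := dist_le (r.takeUntil w hw)
      have h3 := dist_le (r.dropUntil w hw)
      have h4 := hc.dist_triangle (u := z) (v := w) (w := x)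
      rw [SimpleGraph.dist_comm (u := w) (v := z)]
      omega
    · rw [Walk.support_reverse, List.mem_reverse] at hv
      exact r.support_takeUntil_subset_support hw hv

/-- a point of a walk is close to its ends -/
theorem dist_add_dist_le {u v : V} (w : Γ.Walk u v) {t : V} (ht : t ∈ w.support) :
    Γ.dist u t + Γ.dist t v ≤ w.length := by
  classical
  have h1 : w.length = (w.takeUntil t ht).length + (w.dropUntil t ht).length := by
    rw [← Walk.length_append, Walk.take_spec]
  have h2 := dist_le (w.takeUntil t ht)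
  have h3 := dist_le (w.dropUntil t ht)
  omega

/-- initial segments -/
theorem exists_pre {x y : V} (p : Γ.Walk x y) (i : ℕ) (hi : i ≤ p.length) :
    ∃ w : Γ.Walk x (p.getVert i), w.length = i ∧ ∀ v ∈ w.support, ∃ m, m ≤ i ∧ v = p.getVert m := by
  have k1 := exists_sub p 0 i (by omega) hi
  rw [Walk.getVert_zero] at k1
  obtain ⟨w, h1, h2, -⟩ := k1
  refine ⟨w, by omega, fun v hv => ?_⟩
  obtain ⟨m, -, h3, h4⟩ := h2 v hv
  exact ⟨m, h3, h4⟩

theorem dist_zero_getVert (hc : Γ.Connected) {x y : V} (p : Γ.Walk x y)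
    (hp : p.length = Γ.dist x y) {i : ℕ} (hi : i ≤ p.length) : Γ.dist x (p.getVert i) = i := by
  have h := dist_getVert hc p hp (Nat.zero_le i) hi
  rwa [Walk.getVert_zero, Nat.sub_zero] at h

/-- the minimal close pair on two geodesics with the same end -/
theorem exists_pair (hc : Γ.Connected) {u v z : V} (s : Γ.Walk u z) (t : Γ.Walk v z) (R : ℕ) :
    ∃ i j, i ≤ s.length ∧ j ≤ t.length ∧ Γ.dist (s.getVert i) (t.getVert j) ≤ R ∧
      (0 < i + j → ∀ m ≤ i, ∀ l ≤ j, R ≤ Γ.dist (s.getVert m) (t.getVert l)) := by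
  classical
  have h : ∃ n, ∃ i j, i ≤ s.length ∧ j ≤ t.length ∧ Γ.dist (s.getVert i) (t.getVert j) ≤ R ∧
      i + j = n := ⟨_, s.length, t.length, le_rfl, le_rfl, by simp, rfl⟩
  obtain ⟨i, j, h1, h2, h3, h4⟩ := Nat.find_spec h
  refine ⟨i, j, h1, h2, h3, fun hij m hm l hl => ?_⟩
  have key : ∀ m ≤ i, ∀ l ≤ j, m + l < i + j → R < Γ.dist (s.getVert m) (t.getVert l) := by
    intro m hm l hl hml
    by_contra hcon
    exact Nat.find_min h (m := m + l) (by omega)
      ⟨m, l, by omega, by omega, by omega, rfl⟩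
  rcases Nat.lt_or_ge (m + l) (i + j) with h5 | h5
  · exact (key m hm l hl h5).le
  · have hm' : m = i := by omega
    have hl' : l = j := by omega
    subst hm' hl'
    rcases Nat.eq_zero_or_pos m with h6 | h6
    · have h7 := key m le_rfl (l - 1) (by omega) (by omega)
      obtain ⟨w, h8, -, -⟩ := exists_sub t (l - 1) l (by omega) h2
      have h9 := dist_le w
      have h10 := hc.dist_triangle (u := s.getVert m) (v := t.getVert l) (w := t.getVert (l - 1))
      rw [SimpleGraph.dist_comm (u := t.getVert l)] at h10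
      omega
    · have h7 := key (m - 1) (by omega) l le_rfl (by omega)
      obtain ⟨w, h8, -, -⟩ := exists_sub s (m - 1) m (by omega) h1
      have h9 := dist_le w
      have h10 := hc.dist_triangle (u := s.getVert (m - 1)) (v := s.getVert m) (w := t.getVert l)
      omega

/-- the side part of the loop -/
theorem bump_lower (hc : Γ.Connected) {x y : V} (p : Γ.Walk x y) (hp : p.length = Γ.dist x y)
    {k iL iR R : ℕ} (h1 : iL + R / 4 ≤ k) (h2 : k + R / 4 ≤ iR) (h3 : iR ≤ p.length)
    (w : Γ.Walk (p.getVert iL) (p.getVert iR))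
    (hw : ∀ f g : V → ℤ, I f g w = ∑ m ∈ Finset.Ico iL iR,
        (f (p.getVert m) + f (p.getVert (m + 1))) * (g (p.getVert (m + 1)) - g (p.getVert m))) :
    4 * ((R / 4 : ℕ) : ℤ) ^ 2 ≤
      I (fun v => ((R / 2 - Γ.dist v (p.getVert k) : ℕ) : ℤ)) (fun v => (Γ.dist v x : ℤ)) w := by
  rw [hw]
  have hg : ∀ m ≤ p.length, Γ.dist (p.getVert m) x = m := fun m hm => by
    rw [SimpleGraph.dist_comm]; exact dist_zero_getVert hc p hp hm
  have hf : ∀ m ≤ p.length, k ≤ m + R / 4 → m ≤ k + R / 4 → Γ.dist (p.getVert m) (p.getVert k) ≤ R / 4 := by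
    intro m hm h4 h5
    rcases le_total m k with h6 | h6
    · rw [dist_getVert hc p hp h6 (by omega)]; omega
    · rw [SimpleGraph.dist_comm, dist_getVert hc p hp h6 hm]; omega
  have hsub : Finset.Ico (k - R / 4) (k + R / 4) ⊆ Finset.Ico iL iR := by
    intro m hm
    rw [Finset.mem_Ico] at hm ⊢
    omega
  have hpos : ∀ m ∈ Finset.Ico iL iR, (0 : ℤ) ≤
      ((fun v => ((R / 2 - Γ.dist v (p.getVert k) : ℕ) : ℤ)) (p.getVert m) +
        (fun v => ((R / 2 - Γ.dist v (p.getVert k) : ℕ) : ℤ)) (p.getVert (m + 1))) *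
      ((fun v => (Γ.dist v x : ℤ)) (p.getVert (m + 1)) - (fun v => (Γ.dist v x : ℤ)) (p.getVert m)) := by
    intro m hm
    rw [Finset.mem_Ico] at hm
    simp only [hg m (by omega), hg (m + 1) (by omega)]
    have e3 : ((m + 1 : ℕ) : ℤ) - (m : ℤ) = 1 := by push_cast; ring
    rw [e3, mul_one]
    omega
  refine le_trans ?_ (Finset.sum_le_sum_of_subset_of_nonneg hsub (fun m hm _ => hpos m hm))
  have hterm : ∀ m ∈ Finset.Ico (k - R / 4) (k + R / 4), 2 * ((R / 4 : ℕ) : ℤ) ≤
      ((fun v => ((R / 2 - Γ.dist v (p.getVert k) : ℕ) : ℤ)) (p.getVert m) +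
        (fun v => ((R / 2 - Γ.dist v (p.getVert k) : ℕ) : ℤ)) (p.getVert (m + 1))) *
      ((fun v => (Γ.dist v x : ℤ)) (p.getVert (m + 1)) - (fun v => (Γ.dist v x : ℤ)) (p.getVert m)) := by
    intro m hm
    rw [Finset.mem_Ico] at hm
    have e1 := hf m (by omega) (by omega) (by omega)
    have e2 := hf (m + 1) (by omega) (by omega) (by omega)
    simp only [hg m (by omega), hg (m + 1) (by omega)]
    have e3 : ((m + 1 : ℕ) : ℤ) - (m : ℤ) = 1 := by push_cast; ring
    rw [e3, mul_one]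
    omega
  have h7 := Finset.card_nsmul_le_sum _ _ _ hterm
  refine le_trans (le_of_eq ?_) h7
  rw [Nat.card_Ico, nsmul_eq_mul]
  have e4 : k + R / 4 - (k - R / 4) = 2 * (R / 4) := by omega
  rw [e4]
  push_cast
  ring

/-- final arithmetic -/
theorem arith {C R i j ρ : ℤ} (hC : 1 ≤ C) (hRC : 200 * C + 21 ≤ R) (hi : 0 ≤ i) (hj : 0 ≤ j)
    (hA1 : 2 * R * i ≤ 14 * R ^ 2 + C * (7 * R + i + j))
    (hA2 : 2 * R * j ≤ 14 * R ^ 2 + C * (7 * R + i + j))
    (hρ : R - 3 ≤ 4 * ρ) (hB : 4 * ρ ^ 2 ≤ C * (7 * R + i + j)) : False := by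
  have hR : 0 < R := by linarith
  obtain ⟨S, hS⟩ : ∃ S, S = i + j := ⟨_, rfl⟩
  have hS0 : 0 ≤ S := by linarith
  have h1 : 2 * (R * S) ≤ 28 * R ^ 2 + 14 * (C * R) + 2 * (C * S) := by
    have : C * (7 * R + i + j) = 7 * (C * R) + C * S := by rw [hS]; ring
    have h2 : R * S = R * i + R * j := by rw [hS]; ring
    linarith
  have h2 : 2 * (C * S) ≤ R * S := by
    have := mul_le_mul_of_nonneg_right (show 2 * C ≤ R by linarith) hS0
    linarith
  have h3 : 2 * (C * R) ≤ R * R := by
    have := mul_le_mul_of_nonneg_right (show 2 * C ≤ R by linarith) hR.le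
    linarith
  have h4 : R * S ≤ R * (35 * R) := by nlinarith
  have h5 : S ≤ 35 * R := le_of_mul_le_mul_left h4 hR
  have h6 : C * (7 * R + i + j) ≤ C * (42 * R) :=
    mul_le_mul_of_nonneg_left (by linarith) (by linarith)
  have h7 : (R - 3) ^ 2 ≤ (4 * ρ) ^ 2 := by
    apply pow_le_pow_left₀ (by linarith) hρ
  have h8 : (R - 3) ^ 2 ≤ 168 * (C * R) := by nlinarith
  have h9 : 200 * (C * R) + 21 * R ≤ R * R := by
    have := mul_le_mul_of_nonneg_right hRC hR.le
    linarith
  nlinarith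

/-- **Thin triangles from the inequality `|∮ f dg| ≤ C * length`.** -/
theorem thin (hc : Γ.Connected) (C : ℕ) (hC : 1 ≤ C)
    (hS : ∀ (v : V) (w : Γ.Walk v v) (f g : V → ℤ), Lip Γ f → Lip Γ g →
      |I f g w| ≤ C * w.length)
    (x y z : V) (p : Γ.Walk x y) (q : Γ.Walk y z) (r : Γ.Walk z x)
    (hp : p.length = Γ.dist x y) (hq : q.length = Γ.dist y z) (hr : r.length = Γ.dist z x) :
    ∀ v ∈ p.support, ∃ w : V, (w ∈ q.support ∨ w ∈ r.support) ∧ Γ.dist v w ≤ 200 * C + 20 := by
  classical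
  obtain ⟨D, hD⟩ := exists_near (Γ := Γ) {w | w ∈ q.support ∨ w ∈ r.support} ⟨y, Or.inl (by simp)⟩
  obtain ⟨k, hk, hmax⟩ := Finset.exists_max_image (Finset.range (p.length + 1))
    (fun m => D (p.getVert m)) ⟨0, by simp⟩
  simp only [Finset.mem_range] at hk hmax
  suffices hR : D (p.getVert k) ≤ 200 * C + 20 by
    intro v hv
    obtain ⟨m, hm, hm1⟩ := Walk.mem_support_iff_exists_getVert.1 hv
    obtain ⟨⟨b, hb, hb1⟩, -⟩ := hD v
    refine ⟨b, hb, ?_⟩
    have h1 := hmax m (by omega)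
    rw [hm] at h1
    omega
  by_contra hcon
  obtain ⟨v0, hv0⟩ : ∃ v0, v0 = p.getVert k := ⟨_, rfl⟩
  obtain ⟨R, hRdef⟩ : ∃ R, R = D v0 := ⟨_, rfl⟩
  rw [← hv0, ← hRdef] at hcon
  rw [← hv0] at hmax
  have hO : ∀ w, (w ∈ q.support ∨ w ∈ r.support) → R ≤ Γ.dist v0 w := fun w hw => by
    rw [hRdef]; exact (hD v0).2 w hw
  have hle : ∀ m, m ≤ p.length → D (p.getVert m) ≤ R := fun m hm => by
    rw [hRdef]; exact hmax m (by omega)
  have hxO : x ∈ q.support ∨ x ∈ r.support := Or.inr (by simp)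
  have hyO : y ∈ q.support ∨ y ∈ r.support := Or.inl (by simp)
  have hD0 : ∀ a, (a ∈ q.support ∨ a ∈ r.support) → D a = 0 := by
    intro a ha
    have h1 := (hD a).2 a ha
    rw [SimpleGraph.dist_self] at h1
    omega
  have hkR : R ≤ k := by
    have h1 := hO x hxO
    have h2 := dist_zero_getVert hc p hp (i := k) (by omega)
    rw [SimpleGraph.dist_comm] at h1
    rw [← hv0] at h2
    omega
  have hkR' : k + R ≤ p.length := by
    have h1 := hO y hyO
    have h2 := dist_getVert hc p hp (i := k) (j := p.length) (by omega) le_rfl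
    rw [Walk.getVert_length, ← hv0] at h2
    omega
  obtain ⟨iL, hiL⟩ : ∃ iL, iL = k - 2 * R := ⟨_, rfl⟩
  obtain ⟨iR, hiR⟩ : ∃ iR, iR = min p.length (k + 2 * R) := ⟨_, rfl⟩
  -- nearest points
  obtain ⟨⟨qL, hqL, hqL1⟩, -⟩ := hD (p.getVert iL)
  obtain ⟨⟨qR, hqR, hqR1⟩, -⟩ := hD (p.getVert iR)
  have hL1 : D (p.getVert iL) ≤ R := hle _ (by omega)
  have hR1 : D (p.getVert iR) ≤ R := hle _ (by omega)
  have hL2 : R + D (p.getVert iL) ≤ k - iL := by
    rcases Nat.lt_or_ge k (2 * R) with h | h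
    · have h1 : iL = 0 := by omega
      have h2 : D (p.getVert iL) = 0 := by
        rw [h1, Walk.getVert_zero]; exact hD0 x hxO
      omega
    · omega
  have hR2 : R + D (p.getVert iR) ≤ iR - k := by
    rcases Nat.lt_or_ge (k + 2 * R) p.length with h | h
    · omega
    · have h1 : iR = p.length := by omega
      have h2 : D (p.getVert iR) = 0 := by
        rw [h1, Walk.getVert_length]; exact hD0 y hyO
      omega
  obtain ⟨s1, hs1, hs1'⟩ := exists_toz hc q r hq hr qL hqL
  obtain ⟨s2, hs2, hs2'⟩ := exists_toz hc q r hq hr qR hqR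
  obtain ⟨i, j, hi, hj, hij, hmin⟩ := exists_pair hc s1 s2 R
  -- the six pieces
  obtain ⟨w1, hw1, -, hw1'⟩ := exists_sub p iL iR (by omega) (by omega)
  obtain ⟨w2, hw2⟩ := hc.exists_walk_length_eq_dist (p.getVert iR) qR
  obtain ⟨w3, hw3, hw3'⟩ := exists_pre s2 j hj
  obtain ⟨w4, hw4⟩ := hc.exists_walk_length_eq_dist (s2.getVert j) (s1.getVert i)
  obtain ⟨w5, hw5, hw5'⟩ := exists_pre s1 i hi
  obtain ⟨w6, hw6⟩ := hc.exists_walk_length_eq_dist qL (p.getVert iL)
  have l1 : w1.length ≤ 4 * R := by omega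
  have l2 : w2.length ≤ R := by omega
  have l4 : w4.length ≤ R := by rw [hw4, SimpleGraph.dist_comm]; exact hij
  have l6 : w6.length ≤ R := by rw [hw6, SimpleGraph.dist_comm]; omega
  let L := w1.append (w2.append (w3.append (w4.append (w5.reverse.append w6))))
  have hLI : ∀ f g : V → ℤ, I f g L = I f g w1 + I f g w2 + I f g w3 + I f g w4 - I f g w5 +
      I f g w6 := by
    intro f g
    simp only [L, I_append, I_reverse]
    ring
  have hLl : L.length ≤ 7 * R + i + j := by
    simp only [L, Walk.length_append, Walk.length_reverse]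
    omega
  have hLC : ∀ f g : V → ℤ, Lip Γ f → Lip Γ g → |I f g L| ≤ C * (7 * R + i + j) := by
    intro f g hf hg
    refine (hS _ L f g hf hg).trans ?_
    have : (L.length : ℤ) ≤ 7 * R + i + j := by exact_mod_cast hLl
    exact mul_le_mul_of_nonneg_left this (by positivity)
  -- (A): bound of `i` and `j`
  have hrest : ∀ f g : V → ℤ, (∀ v, |f v| ≤ R) → Lip Γ g →
      |I f g w1 + I f g w2 + I f g w4 + I f g w6| ≤ 14 * (R : ℤ) ^ 2 := by
    intro f g hf hg
    have b1 := I_bound f g R hg w1 (fun u _ => hf u)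
    have b2 := I_bound f g R hg w2 (fun u _ => hf u)
    have b4 := I_bound f g R hg w4 (fun u _ => hf u)
    have b6 := I_bound f g R hg w6 (fun u _ => hf u)
    have c1 : 2 * (R : ℤ) * w1.length ≤ 8 * (R : ℤ) ^ 2 := by
      have h : (w1.length : ℤ) ≤ 4 * R := by exact_mod_cast l1
      have := mul_le_mul_of_nonneg_left h (show (0 : ℤ) ≤ 2 * R by positivity)
      linarith
    have c2 : 2 * (R : ℤ) * w2.length ≤ 2 * (R : ℤ) ^ 2 := by
      have h : (w2.length : ℤ) ≤ R := by exact_mod_cast l2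
      have := mul_le_mul_of_nonneg_left h (show (0 : ℤ) ≤ 2 * R by positivity)
      linarith
    have c4 : 2 * (R : ℤ) * w4.length ≤ 2 * (R : ℤ) ^ 2 := by
      have h : (w4.length : ℤ) ≤ R := by exact_mod_cast l4
      have := mul_le_mul_of_nonneg_left h (show (0 : ℤ) ≤ 2 * R by positivity)
      linarith
    have c6 : 2 * (R : ℤ) * w6.length ≤ 2 * (R : ℤ) ^ 2 := by
      have h : (w6.length : ℤ) ≤ R := by exact_mod_cast l6
      have := mul_le_mul_of_nonneg_left h (show (0 : ℤ) ≤ 2 * R by positivity)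
      linarith
    rw [abs_le] at b1 b2 b4 b6 ⊢
    constructor <;> linarith [b1.1, b1.2, b2.1, b2.2, b4.1, b4.2, b6.1, b6.2]
  have hA1 : 2 * (R : ℤ) * i ≤ 14 * (R : ℤ) ^ 2 + C * (7 * R + i + j) := by
    rcases Nat.eq_zero_or_pos i with h0 | h0
    · rw [h0]; simp only [Nat.cast_zero, mul_zero]; positivity
    obtain ⟨f, hf1, hf2, hf3, hf4⟩ := exists_sep hc {v | ∃ m ≤ j, v = s2.getVert m}
      ⟨_, 0, Nat.zero_le _, rfl⟩ R
    have e3 : I f (fun v => (Γ.dist v qL : ℤ)) w3 = 0 := by
      rw [I_const f _ 0 w3 (fun u hu => ?_)]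
      · ring
      · obtain ⟨m, hm, hm1⟩ := hw3' u hu
        exact hf3 u ⟨m, hm, hm1⟩
    have e5 : I f (fun v => (Γ.dist v qL : ℤ)) w5 = 2 * R * i := by
      rw [I_const f _ R w5 (fun u hu => ?_)]
      · simp only [SimpleGraph.dist_self]
        rw [SimpleGraph.dist_comm, dist_zero_getVert hc s1 hs1 hi]
        push_cast
        ring
      · obtain ⟨m, hm, hm1⟩ := hw5' u hu
        refine hf4 u ?_
        rintro b ⟨l, hl, rfl⟩
        rw [hm1]
        exact hmin (by omega) m hm l hl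
    have e7 := hrest f (fun v => (Γ.dist v qL : ℤ)) hf2 (lip_dist hc qL)
    have e8 := hLC f (fun v => (Γ.dist v qL : ℤ)) hf1 (lip_dist hc qL)
    rw [hLI, e3, e5] at e8
    rw [abs_le] at e7 e8
    linarith [e7.1, e7.2, e8.1, e8.2]
  have hA2 : 2 * (R : ℤ) * j ≤ 14 * (R : ℤ) ^ 2 + C * (7 * R + i + j) := by
    rcases Nat.eq_zero_or_pos j with h0 | h0
    · rw [h0]; simp only [Nat.cast_zero, mul_zero]; positivity
    obtain ⟨f, hf1, hf2, hf3, hf4⟩ := exists_sep hc {v | ∃ m ≤ i, v = s1.getVert m}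
      ⟨_, 0, Nat.zero_le _, rfl⟩ R
    have e5 : I f (fun v => (Γ.dist v qR : ℤ)) w5 = 0 := by
      rw [I_const f _ 0 w5 (fun u hu => ?_)]
      · ring
      · obtain ⟨m, hm, hm1⟩ := hw5' u hu
        exact hf3 u ⟨m, hm, hm1⟩
    have e3 : I f (fun v => (Γ.dist v qR : ℤ)) w3 = 2 * R * j := by
      rw [I_const f _ R w3 (fun u hu => ?_)]
      · simp only [SimpleGraph.dist_self]
        rw [SimpleGraph.dist_comm, dist_zero_getVert hc s2 hs2 hj]
        push_cast
        ring
      · obtain ⟨m, hm, hm1⟩ := hw3' u hu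
        refine hf4 u ?_
        rintro b ⟨l, hl, rfl⟩
        rw [hm1, SimpleGraph.dist_comm]
        exact hmin (by omega) l hl m hm
    have e7 := hrest f (fun v => (Γ.dist v qR : ℤ)) hf2 (lip_dist hc qR)
    have e8 := hLC f (fun v => (Γ.dist v qR : ℤ)) hf1 (lip_dist hc qR)
    rw [hLI, e3, e5] at e8
    rw [abs_le] at e7 e8
    linarith [e7.1, e7.2, e8.1, e8.2]
  -- (B): the bump
  have hz : ∀ {a b : V} (w : Γ.Walk a b), (∀ u ∈ w.support, R / 2 ≤ Γ.dist u v0) →
      I (fun v => ((R / 2 - Γ.dist v v0 : ℕ) : ℤ)) (fun v => (Γ.dist v x : ℤ)) w = 0 := by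
    intro a b w hw
    rw [I_const _ _ 0 w (fun u hu => ?_)]
    · ring
    · have := hw u hu
      have h1 : R / 2 - Γ.dist u v0 = 0 := by omega
      simp only [h1, Nat.cast_zero]
  have hB : 4 * ((R / 4 : ℕ) : ℤ) ^ 2 ≤ C * (7 * R + i + j) := by
    have e1 := bump_lower hc p hp (k := k) (iL := iL) (iR := iR) (R := R) (by omega) (by omega)
      (by omega) w1 hw1'
    rw [← hv0] at e1
    have e2 := hz w2 (fun u hu => by
      have h1 := dist_add_dist_le w2 hu
      have h2 := hc.dist_triangle (u := p.getVert iR) (v := u) (w := v0)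
      have h3 := dist_getVert hc p hp (i := k) (j := iR) (by omega) (by omega)
      rw [SimpleGraph.dist_comm, ← hv0] at h3
      omega)
    have e3 := hz w3 (fun u hu => by
      obtain ⟨m, hm, hm1⟩ := hw3' u hu
      have h1 := hO u (by rw [hm1]; exact hs2' _ (Walk.getVert_mem_support _ _))
      rw [SimpleGraph.dist_comm] at h1
      omega)
    have e4 := hz w4 (fun u hu => by
      have h1 := dist_add_dist_le w4 hu
      have h2 := hO (s2.getVert j) (hs2' _ (Walk.getVert_mem_support _ _))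
      have h3 := hO (s1.getVert i) (hs1' _ (Walk.getVert_mem_support _ _))
      have h4 := hc.dist_triangle (u := v0) (v := u) (w := s2.getVert j)
      have h5 := hc.dist_triangle (u := v0) (v := u) (w := s1.getVert i)
      rw [SimpleGraph.dist_comm (u := u) (v := s2.getVert j)] at h4
      rw [SimpleGraph.dist_comm (u := v0) (v := u)] at h4 h5
      omega)
    have e5 := hz w5 (fun u hu => by
      obtain ⟨m, hm, hm1⟩ := hw5' u hu
      have h1 := hO u (by rw [hm1]; exact hs1' _ (Walk.getVert_mem_support _ _))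
      rw [SimpleGraph.dist_comm] at h1
      omega)
    have e6 := hz w6 (fun u hu => by
      have h1 := dist_add_dist_le w6 hu
      have h2 := hc.dist_triangle (u := v0) (v := u) (w := p.getVert iL)
      have h3 := dist_getVert hc p hp (i := iL) (j := k) (by omega) (by omega)
      rw [SimpleGraph.dist_comm, ← hv0] at h3
      rw [SimpleGraph.dist_comm (u := v0) (v := u)] at h2
      rw [SimpleGraph.dist_comm] at hw6
      omega)
    have e8 := hLC _ _ (lip_bump hc v0 (R / 2)) (lip_dist hc x)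
    rw [hLI, e2, e3, e4, e5, e6] at e8
    have e9 := (abs_le.1 e8).2
    linarith
  -- conclusion
  have hRC : (200 * C + 21 : ℤ) ≤ R := by
    have : 200 * C + 21 ≤ R := by omega
    exact_mod_cast this
  have h6 : (R : ℤ) - 3 ≤ 4 * ((R / 4 : ℕ) : ℤ) := by
    have : R ≤ 4 * (R / 4) + 3 := by omega
    have : (R : ℤ) ≤ 4 * ((R / 4 : ℕ) : ℤ) + 3 := by exact_mod_cast this
    linarith
  exact arith (by exact_mod_cast hC) hRC (Int.natCast_nonneg i) (Int.natCast_nonneg j) hA1 hA2 h6 hB

end Vale.Agent.P186H
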